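import Vale.Agent.P235.ST.H183.Law

/-! P235, (ST) O(1), row r16 (all lined pairs). helper183. -/

namespace Vale.Agent.P235.STO.H183

open SimpleGraph
open H188 (exists_level)

variable {V : Type}

/-- unit heights are 1-Lipschitz along walks -/
theorem u_walk (W : LWorld V) {x y : V} (g : W.G.Walk x y) :
    |(W.u x : ℝ) - W.u y| ≤ g.length := by
  have h := sum_walk (ι := Unit) (fun _ x => (W.u x : ℝ)) 1 (fun x y hxy => by
    have h1 := W.unit x y hxy
    simp only [Finset.univ_unique, Finset.sum_const, Finset.card_singleton, one_smul]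
    rw [← Int.cast_sub, ← Int.cast_abs, h1]
    simp) g
  simpa using h

variable [Fintype V] (W : LWorld V)

/-- a pair on the same level -/
theorem level_pair {Ω : Type} [Fintype Ω] {w : Ω → V → ℝ}
    (hlow : ∀ j, 0 ≤ j → ∀ z y, W.tgt (W.rho j) z y →
      Fintype.card Ω * (1 / 2 ^ 180 * W.d z y) ≤ ∑ o, |w o z - w o y|)
    {z y : V} (hz : z ∈ W.N) (hy : y ∈ W.N) (hu : W.u z = W.u y) (hd : r0 ≤ W.d z y) :
    Fintype.card Ω * (1 / 2 ^ 180 * W.d z y) ≤ ∑ o, |w o z - w o y| := by
  rcases le_total (W.idx z) (W.idx y) with hi | hi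
  · obtain ⟨i, hi⟩ := exists_level W hz hy hu hi hd
    exact hlow i (Nat.zero_le _) z y hi
  · obtain ⟨i, hi⟩ := exists_level W hy hz hu.symm hi (by rw [d_comm]; exact hd)
    have h := hlow i (Nat.zero_le _) y z hi
    rw [d_comm] at h
    refine h.trans (le_of_eq ?_)
    exact Finset.sum_congr rfl (fun o _ => abs_sub_comm _ _)

theorem partB (hB : Bumps W) (hI : InvStep W) :
    ∃ (Ω : Type) (_ : Fintype Ω) (_ : Nonempty Ω) (w : Ω → V → ℝ),
    (∀ x y, W.G.Adj x y → ∑ o, |w o x - w o y| ≤ Fintype.card Ω) ∧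
    ∀ x ∈ W.N, ∀ y ∈ W.N, 2 ^ 92 ≤ W.d x y →
      Fintype.card Ω * (1 / 2 ^ 190 * W.d x y) ≤ ∑ o, |w o x - w o y| := by
  obtain ⟨Ω, fΩ, nΩ, w, -, hmean, hedge, hlow⟩ := law_zero W hB hI
  refine ⟨Ω, fΩ, nΩ, w, fun x y hxy => (hedge x y hxy).le, ?_⟩
  intro x hx y hy hd
  have hc : (0 : ℝ) ≤ Fintype.card Ω := by positivity
  have hdn := d_nonneg W x y
  by_cases hA : 1 / 2 ^ 190 * W.d x y ≤ |(W.u x : ℝ) - W.u y|
  · -- the mean height difference is enough
    have h1 : ∑ o, (w o x - w o y) = Fintype.card Ω * ((W.u x : ℝ) - W.u y) := by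
      rw [Finset.sum_sub_distrib, hmean, hmean]; ring
    have h2 := Finset.abs_sum_le_sum_abs (fun o => w o x - w o y) Finset.univ
    rw [h1, abs_mul, abs_of_nonneg hc] at h2
    exact le_trans (mul_le_mul_of_nonneg_left hA hc) h2
  · push Not at hA
    obtain ⟨y', hy', hu'⟩ := W.L_level y hy x hx
    have hyN : y' ∈ W.N := (W.L_sub y hy y' hy').1
    have hyy : W.d y y' ≤ |(W.u x : ℝ) - W.u y| := by
      rcases le_total (W.u y) (W.u y') with h | h
      · obtain ⟨q, hq, -⟩ := W.L_path y hy y (W.mem_L y hy) y' hy' h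
        have h1 := d_le_length W q
        have h2 : (q.length : ℝ) = (W.u y' : ℝ) - W.u y := by exact_mod_cast hq
        rw [hu'] at h2
        rw [h2] at h1
        exact h1.trans (le_abs_self _)
      · obtain ⟨q, hq, -⟩ := W.L_path y hy y' hy' y (W.mem_L y hy) h
        have h1 := d_le_length W q
        have h2 : (q.length : ℝ) = (W.u y : ℝ) - W.u y' := by exact_mod_cast hq
        rw [hu'] at h2
        rw [h2, d_comm] at h1
        refine h1.trans ?_
        rw [abs_sub_comm]
        exact le_abs_self _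
    have htri : W.d x y ≤ W.d x y' + W.d y' y := by
      unfold LWorld.d
      exact_mod_cast W.conn.dist_triangle
    have hsmall : (1 : ℝ) / 2 ^ 190 ≤ 1 / 4 := by norm_num
    have hd' : W.d y y' ≤ 1 / 2 ^ 190 * W.d x y := hyy.trans hA.le
    have hyyc : W.d y' y = W.d y y' := d_comm W y' y
    have hlow' : W.d x y * (1 - 1 / 2 ^ 190) ≤ W.d x y' := by
      rw [hyyc] at htri
      nlinarith
    have hr : r0 ≤ W.d x y' := by
      unfold r0
      nlinarith
    have h1 := level_pair W hlow hx hyN hu'.symm hr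
    have h2 : ∑ o, |w o y' - w o y| ≤ Fintype.card Ω * W.d y' y :=
      sum_dist w (Fintype.card Ω) (fun x y hxy => (hedge x y hxy).le) y' y
    have h3 : ∑ o, |w o x - w o y'| ≤ ∑ o, (|w o x - w o y| + |w o y' - w o y|) := by
      refine Finset.sum_le_sum (fun o _ => ?_)
      have := abs_sub_le (w o x) (w o y) (w o y')
      rw [abs_sub_comm (w o y) (w o y')] at this
      exact this
    rw [Finset.sum_add_distrib] at h3
    rw [hyyc] at h2
    have h4 : (Fintype.card Ω : ℝ) * W.d y y' ≤ Fintype.card Ω * (1 / 2 ^ 190 * W.d x y) :=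
      mul_le_mul_of_nonneg_left hd' hc
    have h5 : (Fintype.card Ω : ℝ) * (1 / 2 ^ 190 * W.d x y + 1 / 2 ^ 190 * W.d x y) ≤
        Fintype.card Ω * (1 / 2 ^ 180 * W.d x y') := by
      refine mul_le_mul_of_nonneg_left ?_ hc
      nlinarith
    rw [mul_add] at h5
    linarith

end Vale.Agent.P235.STO.H183
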