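import Mathlib

/-! P235, (ST) O(1), row r9 (signs). helper183. -/

namespace Vale.Agent.P235.STO.H183

theorem sign_avg {ι : Type} [Fintype ι] [DecidableEq ι] (a : ι → ℝ) (i : ι) :
    |a i| * Fintype.card (ι → Bool) ≤
      ∑ ε : ι → Bool, |∑ j, (if ε j then (1 : ℝ) else -1) * a j| := by
  classical
  -- flip all coordinates but `i`
  let fl : (ι → Bool) → (ι → Bool) := fun ε j => if j = i then ε j else !(ε j)
  have hinv : Function.Involutive fl := by
    intro ε
    funext j
    by_cases h : j = i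
    · simp [fl, h]
    · simp [fl, h]
  let S : (ι → Bool) → ℝ := fun ε => ∑ j, (if ε j then (1 : ℝ) else -1) * a j
  have hsum : ∑ ε : ι → Bool, |S (fl ε)| = ∑ ε : ι → Bool, |S ε| :=
    Equiv.sum_comp hinv.toPerm (fun ε => |S ε|)
  have hpt : ∀ ε : ι → Bool, 2 * |a i| ≤ |S ε| + |S (fl ε)| := by
    intro ε
    have h1 : S ε + S (fl ε) = 2 * ((if ε i then (1 : ℝ) else -1) * a i) := by
      simp only [S]
      rw [← Finset.sum_add_distrib, Finset.sum_eq_single i]
      · simp only [fl, if_true]; ring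
      · intro j _ hj
        simp only [fl, if_neg hj]
        cases ε j <;> simp
      · intro h; exact absurd (Finset.mem_univ _) h
    have h2 : |S ε + S (fl ε)| = 2 * |a i| := by
      rw [h1, abs_mul, abs_mul]
      have : |(if ε i then (1 : ℝ) else -1)| = 1 := by
        split_ifs <;> simp
      rw [this]
      norm_num
    have h3 := abs_add_le (S ε) (S (fl ε))
    linarith
  have h4 : ∑ ε : ι → Bool, 2 * |a i| ≤ ∑ ε : ι → Bool, (|S ε| + |S (fl ε)|) :=
    Finset.sum_le_sum (fun ε _ => hpt ε)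
  rw [Finset.sum_add_distrib, hsum, Finset.sum_const, nsmul_eq_mul, Finset.card_univ] at h4
  have h5 : ∑ ε : ι → Bool, |S ε| = ∑ ε : ι → Bool, |∑ j, (if ε j then (1 : ℝ) else -1) * a j| := rfl
  rw [← h5]
  linarith

end Vale.Agent.P235.STO.H183
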