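import Vale.Agent.P235.ST.H317.Defs2
import Vale.Agent.P235.ST.H188.RowsPlan
import Vale.Agent.P235.ST.H939.InfConv
import Vale.Agent.P235.ST.H611.Cost
import Vale.Agent.P235.ST.H183.SignAvg

/-! P235, (ST) O(1), row r15 (the process of tilts). helper183. -/

namespace Vale.Agent.P235.STO.H183

open SimpleGraph
open H188 (nxt_scale rho_scale nxt_le rho_eventually)
open H939 (infconv)
open H611 (cost_reverse abs_le_cost)

variable {V : Type}

/-- statement of the row `bumps` (r6, r7) -/
def Bumps [Fintype V] (W : LWorld V) : Prop :=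
  ∀ {ρ : V → ℝ}, W.Scale ρ → ∃ (ι : Type) (_ : Fintype ι) (T : ι → V → ℝ),
    (∀ x y, W.G.Adj x y → ∑ i, |T i x - T i y| ≤ Cf) ∧ (∀ x, ∑ i, |T i x| ≤ ρ x) ∧
    ∀ z y, W.tgt ρ z y → ∃ i, 1 / 2 ^ 32 * W.d z y ≤ |T i z - T i y|

/-- statement of the row `inv_step` (r14) -/
def InvStep [Fintype V] (W : LWorld V) : Prop :=
  ∀ {ρ w v : V → ℝ}, W.Scale ρ → W.Inv (W.nxt ρ) w →
    (∀ x y, W.G.Adj x y → |v x - v y| ≤ e1 * |w x - w y|) →
    (∀ x, |v x| ≤ e1 * ρ x) → W.Inv ρ (fun x => w x + v x)

/-- sum of a family along a walk -/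
theorem sum_walk {ι : Type} [Fintype ι] {G : SimpleGraph V} (T : ι → V → ℝ) (C : ℝ)
    (h : ∀ x y, G.Adj x y → ∑ i, |T i x - T i y| ≤ C) {x y : V} (g : G.Walk x y) :
    ∑ i, |T i x - T i y| ≤ C * g.length := by
  induction g with
  | nil => simp
  | @cons a b c hab p ih =>
    have h1 : ∑ i, |T i a - T i c| ≤ ∑ i, (|T i a - T i b| + |T i b - T i c|) :=
      Finset.sum_le_sum (fun i _ => abs_sub_le _ _ _)
    rw [Finset.sum_add_distrib] at h1
    have h2 := h a b hab
    rw [Walk.length_cons]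
    push_cast
    linarith

theorem sum_dist {ι : Type} [Fintype ι] {W : LWorld V} (T : ι → V → ℝ) (C : ℝ)
    (h : ∀ x y, W.G.Adj x y → ∑ i, |T i x - T i y| ≤ C) (x y : V) :
    ∑ i, |T i x - T i y| ≤ C * W.d x y := by
  obtain ⟨g, hg⟩ := W.conn.exists_walk_length_eq_dist x y
  have := sum_walk T C h g
  rw [hg] at this
  exact this

theorem d_comm (W : LWorld V) (x y : V) : W.d x y = W.d y x := by
  unfold LWorld.d
  rw [SimpleGraph.dist_comm]

theorem d_nonneg (W : LWorld V) (x y : V) : 0 ≤ W.d x y := by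
  unfold LWorld.d
  positivity

theorem d_le_length (W : LWorld V) {x y : V} (g : W.G.Walk x y) : W.d x y ≤ g.length := by
  unfold LWorld.d
  exact_mod_cast SimpleGraph.dist_le g

/-- cost of the heights is the length -/
theorem cost_u (W : LWorld V) {x y : V} (g : W.G.Walk x y) :
    cost (fun x => (W.u x : ℝ)) g = g.length := by
  induction g with
  | nil => simp [cost]
  | @cons a b c hab p ih =>
    have h1 : |(W.u a : ℝ) - W.u b| = 1 := by
      have := W.unit a b hab
      rw [← Int.cast_sub, ← Int.cast_abs, this]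
      simp
    rw [Walk.length_cons]
    simp only [cost]
    rw [h1, ih]
    push_cast
    ring

variable [Fintype V] (W : LWorld V)

theorem rho_zero_of_le {n : ℕ} (h : ∀ x, W.rho n x = 0) : ∀ j, n ≤ j → ∀ x, W.rho j x = 0 := by
  intro j hj
  induction j, hj using Nat.le_induction with
  | base => exact h
  | succ j hj ih =>
    intro x
    have h1 := nxt_le W (rho_scale W j) x
    have h2 := (nxt_scale W (W.rho j)).nonneg x
    rw [ih x, mul_zero] at h1
    exact le_antisymm h1 h2

theorem law_start {n : ℕ} (h : ∀ x, W.rho n x = 0) : W.Law n := by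
  refine ⟨Unit, inferInstance, inferInstance, fun _ x => (W.u x : ℝ), ?_, ?_, ?_, ?_⟩
  · intro _
    refine ⟨?_, ?_, ?_⟩
    · intro x y hxy
      have h1 : W.u x - W.u y ≠ 0 := by
        intro h0
        have := W.unit x y hxy
        rw [h0] at this
        simp at this
      have h2 : ((W.u x : ℝ) - W.u y) ≠ 0 := by
        exact_mod_cast h1
      exact mul_self_pos.mpr h2
    · intro x
      rw [h x]
      simp
    · intro p q g _
      rw [cost_u]
      have h1 := d_le_length W g
      have h2 := d_nonneg W p q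
      have h3 : c2 ≤ 1 := by unfold c2; norm_num
      nlinarith
  · intro x
    simp
  · intro x y hxy
    have := W.unit x y hxy
    simp only [Finset.univ_unique, Finset.sum_const, Finset.card_singleton, one_smul,
      Fintype.card_unique, Nat.cast_one]
    rw [← Int.cast_sub, ← Int.cast_abs, this]
    simp
  · intro j hj z y ht
    exfalso
    have h1 := ht.2.2.2.2.1
    have h2 := ht.2.2.2.2.2.2.1
    rw [rho_zero_of_le W h j hj z] at h2
    unfold r0 at h1
    norm_num at h1
    linarith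

omit [Fintype V] in
/-- one tilt -/
theorem exists_tilt [Finite V] [Nonempty V] {ρ' w : V → ℝ} (hρ' : W.Scale ρ')
    (hw : W.Inv ρ' w) (f : V → ℝ) (hf : ∀ x y, |f x - f y| ≤ Cf * W.d x y) :
    ∃ g : V → ℝ, (∀ x, f x ≤ g x ∧ g x ≤ f x + Cf * C1 * d1 * ρ' x) ∧
      ∀ x y, W.G.Adj x y → |g x - g y| ≤ 2 ^ 24 * |w x - w y| := by
  have hCf : (0 : ℝ) < Cf := by unfold Cf; norm_num
  have hE : (0 : ℝ) ≤ Cf * C1 * d1 := by unfold Cf C1 d1; norm_num
  refine infconv W.conn f (fun x => Cf * C1 * d1 * ρ' x) w (2 ^ 24) (by norm_num)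
    (fun x => mul_nonneg hE (hρ'.nonneg x)) ?_
  intro x y g
  have hcost : 0 ≤ cost w g := le_trans (abs_nonneg _) (abs_le_cost w g)
  have hd := d_nonneg W x y
  have hlb : ∀ (p q : V) (g' : W.G.Walk p q), C1 * d1 * ρ' p ≤ W.d p q →
      Cf * W.d p q ≤ 2 ^ 24 * cost w g' := by
    intro p q g' hh
    have h1 := hw.lb p q g' hh
    unfold c2 at h1
    unfold Cf
    have h2 : (2 : ℝ) ^ 24 * (1 / 2 ^ 10 * W.d p q) ≤ 2 ^ 24 * cost w g' :=
      mul_le_mul_of_nonneg_left h1 (by norm_num)
    have h3 : (2 : ℝ) ^ 24 * (1 / 2 ^ 10 * W.d p q) = 2 ^ 14 * W.d p q := by ring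
    linarith
  have hmin : 0 ≤ min (Cf * C1 * d1 * ρ' x) (Cf * C1 * d1 * ρ' y) :=
    le_min (mul_nonneg hE (hρ'.nonneg x)) (mul_nonneg hE (hρ'.nonneg y))
  by_cases hx : C1 * d1 * ρ' x ≤ W.d x y
  · have := hlb x y g hx
    have := hf x y
    show |f x - f y| ≤ 2 ^ 24 * cost w g + min (Cf * C1 * d1 * ρ' x) (Cf * C1 * d1 * ρ' y)
    linarith
  by_cases hy : C1 * d1 * ρ' y ≤ W.d x y
  · have h1 := hlb y x g.reverse (by rw [d_comm W y x]; exact hy)
    rw [cost_reverse, d_comm W y x] at h1
    have := hf x y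
    show |f x - f y| ≤ 2 ^ 24 * cost w g + min (Cf * C1 * d1 * ρ' x) (Cf * C1 * d1 * ρ' y)
    linarith
  · push Not at hx hy
    have h1 : Cf * W.d x y ≤ min (Cf * C1 * d1 * ρ' x) (Cf * C1 * d1 * ρ' y) := by
      refine le_min ?_ ?_
      · have := mul_le_mul_of_nonneg_left hx.le hCf.le
        calc Cf * W.d x y ≤ Cf * (C1 * d1 * ρ' x) := this
          _ = _ := by ring
      · have := mul_le_mul_of_nonneg_left hy.le hCf.le
        calc Cf * W.d x y ≤ Cf * (C1 * d1 * ρ' y) := this
          _ = _ := by ring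
    have := hf x y
    show |f x - f y| ≤ 2 ^ 24 * cost w g + min (Cf * C1 * d1 * ρ' x) (Cf * C1 * d1 * ρ' y)
    have h3 : 0 ≤ 2 ^ 24 * cost w g := by positivity
    linarith

theorem law_step (hB : Bumps W) (hI : InvStep W) (i : ℕ) (h : W.Law (i + 1)) : W.Law i := by
  classical
  obtain ⟨Ω, fΩ, nΩ, w, hInv, hmean, hedge, hlow⟩ := h
  have : Nonempty V := W.conn.nonempty
  set ρ := W.rho i with hρdef
  have hρ : W.Scale ρ := rho_scale W i
  have hρ' : W.Scale (W.nxt ρ) := nxt_scale W ρ
  have hrr : W.rho (i + 1) = W.nxt ρ := rfl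
  rw [hrr] at hInv
  obtain ⟨ι, fι, T, hT1, hT2, hT3⟩ := hB hρ
  let F : (ι → Bool) → V → ℝ := fun ε x => ∑ j, (if ε j then (1 : ℝ) else -1) * T j x
  have hFd : ∀ ε x y, F ε x - F ε y = ∑ j, (if ε j then (1 : ℝ) else -1) * (T j x - T j y) := by
    intro ε x y
    simp only [F]
    rw [← Finset.sum_sub_distrib]
    exact Finset.sum_congr rfl (fun j _ => by ring)
  have habs : ∀ (ε : ι → Bool) (a : ι → ℝ),
      |∑ j, (if ε j then (1 : ℝ) else -1) * a j| ≤ ∑ j, |a j| := by
    intro ε a
    refine (Finset.abs_sum_le_sum_abs _ _).trans (le_of_eq ?_)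
    refine Finset.sum_congr rfl (fun j _ => ?_)
    rw [abs_mul]
    have : |(if ε j then (1 : ℝ) else -1)| = 1 := by split_ifs <;> simp
    rw [this, one_mul]
  have hFlip : ∀ ε x y, |F ε x - F ε y| ≤ Cf * W.d x y := by
    intro ε x y
    rw [hFd]
    exact (habs ε _).trans (sum_dist T Cf hT1 x y)
  have hFabs : ∀ ε x, |F ε x| ≤ ρ x := fun ε x => (habs ε _).trans (hT2 x)
  have hg : ∀ (o : Ω) (ε : ι → Bool), ∃ g : V → ℝ,
      (∀ x, F ε x ≤ g x ∧ g x ≤ F ε x + Cf * C1 * d1 * W.nxt ρ x) ∧
      ∀ x y, W.G.Adj x y → |g x - g y| ≤ 2 ^ 24 * |w o x - w o y| :=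
    fun o ε => exists_tilt W hρ' (hInv o) (F ε) (hFlip ε)
  choose g hg1 hg2 using hg
  let s : ℝ := 1 / 2 ^ 144
  have hs : 0 < s := by simp only [s]; norm_num
  let v : Ω → (ι → Bool) → V → ℝ := fun o ε x => s * g o ε x
  have hv1 : ∀ o ε x y, W.G.Adj x y → |v o ε x - v o ε y| ≤ e1 * |w o x - w o y| := by
    intro o ε x y hxy
    have h1 := hg2 o ε x y hxy
    have h2 : v o ε x - v o ε y = s * (g o ε x - g o ε y) := by simp only [v]; ring
    rw [h2, abs_mul, abs_of_pos hs]
    have h3 : s * |g o ε x - g o ε y| ≤ s * (2 ^ 24 * |w o x - w o y|) :=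
      mul_le_mul_of_nonneg_left h1 hs.le
    have h4 : s * (2 ^ 24 * |w o x - w o y|) = e1 * |w o x - w o y| := by
      simp only [s, e1]; ring
    linarith
  have hEn : ∀ x, 0 ≤ Cf * C1 * d1 * W.nxt ρ x := fun x =>
    mul_nonneg (by unfold Cf C1 d1; norm_num) (hρ'.nonneg x)
  have hEsmall : ∀ x, Cf * C1 * d1 * W.nxt ρ x ≤ ρ x := by
    intro x
    have h1 := nxt_le W hρ x
    have h2 := hρ.nonneg x
    unfold Cf C1
    unfold d1 at *
    nlinarith
  have hv2 : ∀ o ε x, |v o ε x| ≤ e1 * ρ x := by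
    intro o ε x
    have h1 := hg1 o ε x
    have h2 := hFabs ε x
    rw [abs_le] at h2
    have h3 := hEsmall x
    have h4 := hρ.nonneg x
    have h5 : |g o ε x| ≤ 2 * ρ x := by
      rw [abs_le]
      constructor <;> linarith [h1.1, h1.2, h2.1, h2.2]
    show |s * g o ε x| ≤ e1 * ρ x
    rw [abs_mul, abs_of_pos hs]
    have h6 : s * |g o ε x| ≤ s * (2 * ρ x) := mul_le_mul_of_nonneg_left h5 hs.le
    have h7 : s * (2 * ρ x) ≤ e1 * ρ x := by
      have : s * 2 ≤ e1 := by simp only [s, e1]; norm_num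
      nlinarith
    linarith
  -- lower bound for the differences of v on a target pair
  have hv3 : ∀ o z y, W.tgt ρ z y →
      Fintype.card (ι → Bool) * (1 / 2 ^ 180 * W.d z y) ≤ ∑ ε, |v o ε z - v o ε y| := by
    intro o z y ht
    obtain ⟨i0, hi0⟩ := hT3 z y ht
    have h1 := sign_avg (fun j => T j z - T j y) i0
    have h2 : ∀ ε : ι → Bool,
        s * (|∑ j, (if ε j then (1 : ℝ) else -1) * (T j z - T j y)| - 1 / 2 ^ 50 * W.d z y) ≤
          |v o ε z - v o ε y| := by
      intro ε
      have h3 : v o ε z - v o ε y = s * (g o ε z - g o ε y) := by simp only [v]; ring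
      rw [h3, abs_mul, abs_of_pos hs]
      refine mul_le_mul_of_nonneg_left ?_ hs.le
      rw [← hFd]
      have hz := hg1 o ε z
      have hy := hg1 o ε y
      have h4 : W.nxt ρ z < W.d z y := ht.2.2.2.2.2.1
      have h5 : W.nxt ρ y ≤ W.nxt ρ z + W.d z y / kap := by
        have := hρ'.lip z y
        rw [abs_le] at this
        linarith [this.1]
      have h6 : Cf * C1 * d1 * W.nxt ρ z ≤ 1 / 2 ^ 50 * W.d z y := by
        unfold Cf C1 d1
        have := d_nonneg W z y
        nlinarith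
      have h7 : Cf * C1 * d1 * W.nxt ρ y ≤ 1 / 2 ^ 50 * W.d z y := by
        have h8 : W.nxt ρ y ≤ 2 ^ 23 * W.d z y := by
          unfold kap at h5
          have := d_nonneg W z y
          have h9 : W.d z y / (1 / 2 ^ 22) = 2 ^ 22 * W.d z y := by ring
          rw [h9] at h5
          nlinarith
        unfold Cf C1 d1
        have := d_nonneg W z y
        nlinarith
      have h10 : |F ε z - F ε y| ≤ |g o ε z - g o ε y| + 1 / 2 ^ 50 * W.d z y := by
        rcases abs_cases (F ε z - F ε y) with h | h <;>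
          rcases abs_cases (g o ε z - g o ε y) with h' | h' <;>
          linarith [hz.1, hz.2, hy.1, hy.2, h.1, h'.1, h.2, h'.2]
      linarith
    have h3 : ∑ ε : ι → Bool,
        s * (|∑ j, (if ε j then (1 : ℝ) else -1) * (T j z - T j y)| - 1 / 2 ^ 50 * W.d z y) ≤
        ∑ ε, |v o ε z - v o ε y| := Finset.sum_le_sum (fun ε _ => h2 ε)
    rw [← Finset.mul_sum, Finset.sum_sub_distrib, Finset.sum_const, nsmul_eq_mul,
      Finset.card_univ] at h3
    have h4 : (1 / 2 ^ 32 * W.d z y) * Fintype.card (ι → Bool) ≤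
        |T i0 z - T i0 y| * Fintype.card (ι → Bool) :=
      mul_le_mul_of_nonneg_right hi0 (by positivity)
    have h5 : s * ((1 / 2 ^ 32 * W.d z y) * Fintype.card (ι → Bool) -
        Fintype.card (ι → Bool) * (1 / 2 ^ 50 * W.d z y)) ≤ ∑ ε, |v o ε z - v o ε y| := by
      refine le_trans ?_ h3
      refine mul_le_mul_of_nonneg_left ?_ hs.le
      linarith
    refine le_trans ?_ h5
    have h6 : (0 : ℝ) ≤ Fintype.card (ι → Bool) * W.d z y :=
      mul_nonneg (by positivity) (d_nonneg W z y)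
    have h7 : s * ((1 / 2 ^ 32 * W.d z y) * Fintype.card (ι → Bool) -
        Fintype.card (ι → Bool) * (1 / 2 ^ 50 * W.d z y)) =
        (s * (1 / 2 ^ 32 - 1 / 2 ^ 50)) * (Fintype.card (ι → Bool) * W.d z y) := by ring
    have h8 : (Fintype.card (ι → Bool) : ℝ) * (1 / 2 ^ 180 * W.d z y) =
        (1 / 2 ^ 180) * (Fintype.card (ι → Bool) * W.d z y) := by ring
    rw [h7, h8]
    refine mul_le_mul_of_nonneg_right ?_ h6
    simp only [s]
    norm_num
  -- the new family
  let sg : Bool → ℝ := fun b => if b then 1 else -1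
  let w' : Ω × (ι → Bool) × Bool → V → ℝ := fun o x => w o.1 x + sg o.2.2 * v o.1 o.2.1 x
  have hsplit : ∀ f : Ω × (ι → Bool) × Bool → ℝ,
      ∑ o, f o = ∑ o : Ω, ∑ ε : ι → Bool, (f (o, ε, true) + f (o, ε, false)) := by
    intro f
    rw [Fintype.sum_prod_type]
    refine Finset.sum_congr rfl (fun o _ => ?_)
    rw [Fintype.sum_prod_type]
    refine Finset.sum_congr rfl (fun ε _ => ?_)
    rw [Fintype.sum_bool]
  have hcard : (Fintype.card (Ω × (ι → Bool) × Bool) : ℝ) =
      Fintype.card Ω * (2 * Fintype.card (ι → Bool)) := by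
    rw [Fintype.card_prod, Fintype.card_prod, Fintype.card_bool]
    push_cast
    ring
  have htwo : ∀ o ε x y, 2 * |w o x - w o y| ≤
      |w' (o, ε, true) x - w' (o, ε, true) y| + |w' (o, ε, false) x - w' (o, ε, false) y| := by
    intro o ε x y
    have h1 : w' (o, ε, true) x - w' (o, ε, true) y + (w' (o, ε, false) x - w' (o, ε, false) y)
        = 2 * (w o x - w o y) := by
      simp only [w', sg]; simp; ring
    have h2 := abs_add_le (w' (o, ε, true) x - w' (o, ε, true) y)
      (w' (o, ε, false) x - w' (o, ε, false) y)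
    rw [h1, abs_mul] at h2
    simpa using h2
  have htwo' : ∀ o ε x y, 2 * |v o ε x - v o ε y| ≤
      |w' (o, ε, true) x - w' (o, ε, true) y| + |w' (o, ε, false) x - w' (o, ε, false) y| := by
    intro o ε x y
    have h1 : w' (o, ε, true) x - w' (o, ε, true) y - (w' (o, ε, false) x - w' (o, ε, false) y)
        = 2 * (v o ε x - v o ε y) := by
      simp only [w', sg]; simp; ring
    have h2 := abs_sub (w' (o, ε, true) x - w' (o, ε, true) y)
      (w' (o, ε, false) x - w' (o, ε, false) y)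
    rw [h1, abs_mul] at h2
    simpa using h2
  refine ⟨Ω × (ι → Bool) × Bool, inferInstance, inferInstance, w', ?_, ?_, ?_, ?_⟩
  · rintro ⟨o, ε, b⟩
    cases b
    · have h1 := hI hρ (hInv o) (v := fun x => - v o ε x)
        (fun x y hxy => by
          have := hv1 o ε x y hxy
          have h2 : - v o ε x - - v o ε y = -(v o ε x - v o ε y) := by ring
          rw [h2, abs_neg]; exact this)
        (fun x => by rw [abs_neg]; exact hv2 o ε x)
      have h2 : w' (o, ε, false) = fun x => w o x + - v o ε x := by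
        funext x; simp only [w', sg]; simp
      rw [h2]; exact h1
    · have h1 := hI hρ (hInv o) (v := fun x => v o ε x)
        (fun x y hxy => hv1 o ε x y hxy) (fun x => hv2 o ε x)
      have h2 : w' (o, ε, true) = fun x => w o x + v o ε x := by
        funext x; simp only [w', sg]; simp
      rw [h2]; exact h1
  · intro x
    rw [hsplit, hcard]
    have h1 : ∀ o ε, w' (o, ε, true) x + w' (o, ε, false) x = 2 * w o x := by
      intro o ε; simp only [w', sg]; simp; ring
    simp_rw [h1]
    simp_rw [Finset.sum_const, nsmul_eq_mul, Finset.card_univ]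
    rw [← Finset.mul_sum, ← Finset.mul_sum, hmean]
    ring
  · intro x y hxy
    rw [hsplit, hcard]
    have h1 : ∀ o ε, |w' (o, ε, true) x - w' (o, ε, true) y| +
        |w' (o, ε, false) x - w' (o, ε, false) y| = 2 * |w o x - w o y| := by
      intro o ε
      have h2 := hv1 o ε x y hxy
      have h3 : e1 * |w o x - w o y| ≤ |w o x - w o y| := by
        have : e1 ≤ 1 := by unfold e1; norm_num
        have := abs_nonneg (w o x - w o y)
        nlinarith
      have h4 : |v o ε x - v o ε y| ≤ |w o x - w o y| := h2.trans h3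
      have h5 : w' (o, ε, true) x - w' (o, ε, true) y = (w o x - w o y) + (v o ε x - v o ε y) := by
        simp only [w', sg]; simp; ring
      have h6 : w' (o, ε, false) x - w' (o, ε, false) y = (w o x - w o y) - (v o ε x - v o ε y) := by
        simp only [w', sg]; simp; ring
      rw [h5, h6]
      rw [abs_le] at h4
      rcases le_total 0 (w o x - w o y) with h | h
      · rw [abs_of_nonneg h] at *
        rw [abs_of_nonneg (by linarith [h4.1]), abs_of_nonneg (by linarith [h4.2])]
        ring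
      · rw [abs_of_nonpos h] at *
        rw [abs_of_nonpos (by linarith [h4.2]), abs_of_nonpos (by linarith [h4.1])]
        ring
    simp_rw [h1]
    simp_rw [Finset.sum_const, nsmul_eq_mul, Finset.card_univ]
    rw [← Finset.mul_sum, ← Finset.mul_sum, hedge x y hxy]
    ring
  · intro j hj z y ht
    rw [hsplit, hcard]
    rcases Nat.lt_or_ge i j with hij | hij
    · have h1 := hlow j hij z y ht
      have h2 : ∑ o : Ω, ∑ ε : ι → Bool, 2 * |w o z - w o y| ≤
          ∑ o : Ω, ∑ ε : ι → Bool, (|w' (o, ε, true) z - w' (o, ε, true) y| +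
            |w' (o, ε, false) z - w' (o, ε, false) y|) :=
        Finset.sum_le_sum (fun o _ => Finset.sum_le_sum (fun ε _ => htwo o ε z y))
      refine le_trans ?_ h2
      simp_rw [Finset.sum_const, nsmul_eq_mul, Finset.card_univ]
      rw [← Finset.mul_sum, ← Finset.mul_sum]
      have h3 : (0 : ℝ) ≤ Fintype.card (ι → Bool) * 2 := by positivity
      have h4 := mul_le_mul_of_nonneg_left h1 h3
      calc _ = Fintype.card (ι → Bool) * 2 * (Fintype.card Ω * (1 / 2 ^ 180 * W.d z y)) := by ring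
        _ ≤ _ := h4
        _ = _ := by ring
    · have hij' : j = i := le_antisymm hij hj
      subst hij'
      have h2 : ∑ o : Ω, ∑ ε : ι → Bool, 2 * |v o ε z - v o ε y| ≤
          ∑ o : Ω, ∑ ε : ι → Bool, (|w' (o, ε, true) z - w' (o, ε, true) y| +
            |w' (o, ε, false) z - w' (o, ε, false) y|) :=
        Finset.sum_le_sum (fun o _ => Finset.sum_le_sum (fun ε _ => htwo' o ε z y))
      refine le_trans ?_ h2
      simp_rw [← Finset.mul_sum]
      have h3 : ∑ _o : Ω, Fintype.card (ι → Bool) * (1 / 2 ^ 180 * W.d z y) ≤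
          ∑ o : Ω, ∑ ε : ι → Bool, |v o ε z - v o ε y| :=
        Finset.sum_le_sum (fun o _ => hv3 o z y ht)
      rw [Finset.sum_const, nsmul_eq_mul, Finset.card_univ] at h3
      calc _ = 2 * (Fintype.card Ω * (Fintype.card (ι → Bool) * (1 / 2 ^ 180 * W.d z y))) := by ring
        _ ≤ _ := mul_le_mul_of_nonneg_left h3 (by norm_num)

theorem law_zero (hB : Bumps W) (hI : InvStep W) : W.Law 0 := by
  obtain ⟨n, hn⟩ := rho_eventually W
  have h := law_start W hn
  clear hn
  induction n with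
  | zero => exact h
  | succ n ih => exact ih (law_step W hB hI n h)

end Vale.Agent.P235.STO.H183
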